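import Vale.Agent.P304Z.E1

/-!
# P304Z, layer E: moving a centre to a point, geometry of the new state
-/

open Finset

set_option linter.unusedSectionVars false

namespace Vale.Agent.P304Z.E.E4

open Vale.Agent.P304 Vale.Agent.P304.Dyn

variable {X : Type} [Fintype X] [DecidableEq X] {Q : ℕ}

theorem D_nonneg {D : X → X → ℝ} (h : PM D) (x y : X) : 0 ≤ D x y := by
  have h1 := h.tri x y x
  rw [h.self, h.symm y x] at h1
  linarith

/-- `t` arises from `s` by moving the centre `i0` to `x` -/
structure Geo (D : X → X → ℝ) (s t : LS X Q) (x : X) (i0 : Option X) : Prop where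
  pm : PM D
  vs : Valid D s
  z0 : t.z i0 = x
  h0 : t.h i0 = 0
  zj : ∀ j, j ≠ i0 → t.z j = s.z j
  hj : ∀ j, j ≠ i0 → t.h j = max (s.h j) (6 - D x (s.z j))
  ch : (En D s x < 3 ∧ cid D s x = i0) ∨ (En D s x = 3 ∧ 3 ≤ s.h i0)

theorem En_eq_val {D : X → X → ℝ} {s : LS X Q} {u : X} (h : En D s u < 3) :
    En D s u = val D s u (cid D s u) := by
  unfold En at h ⊢
  rcases le_total 3 (val D s u (cid D s u)) with h1 | h1
  · rw [min_eq_left h1] at h
    exact absurd h (lt_irrefl _)
  · exact min_eq_right h1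

theorem exists_high {D : X → X → ℝ} (hD : PM D) {s : LS X Q} (hs : Valid D s) :
    ∃ i, 3 ≤ s.h i := by
  have hc : Fintype.card X < Fintype.card (Option X) := by
    rw [Fintype.card_option]
    exact Nat.lt_succ_self _
  obtain ⟨i, j, hij, hz⟩ := Fintype.exists_ne_map_eq_of_card_lt s.z hc
  have h1 := hs.sep i j hij
  rw [hz, hD.self] at h1
  by_contra hcon
  push Not at hcon
  have h2 := hcon i
  have h3 := hcon j
  linarith

theorem exists_geo (hB : Basic) {D : X → X → ℝ} (hD : PM D) {s : LS X Q} (hs : Valid D s) (x : X)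
    (tk' : Tid X Q → Option X) : ∃ (t : LS X Q) (i0 : Option X), Geo D s t x i0 ∧ t.tk = tk' := by
  have key : ∃ i0, (En D s x < 3 ∧ cid D s x = i0) ∨ (En D s x = 3 ∧ 3 ≤ s.h i0) := by
    rcases lt_or_eq_of_le (hB.En_range X Q D s x hD hs).2 with h | h
    · exact ⟨_, Or.inl ⟨h, rfl⟩⟩
    · obtain ⟨i, hi⟩ := exists_high hD hs
      exact ⟨i, Or.inr ⟨h, hi⟩⟩
  obtain ⟨i0, hi0⟩ := key
  refine ⟨⟨fun j => if j = i0 then x else s.z j,
    fun j => if j = i0 then 0 else max (s.h j) (6 - D x (s.z j)), tk'⟩, i0,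
    ⟨hD, hs, ?_, ?_, ?_, ?_, hi0⟩, rfl⟩
  · simp only [if_true]
  · simp only [if_true]
  · intro j hj
    simp only [if_neg hj]
  · intro j hj
    simp only [if_neg hj]

section

variable {D : X → X → ℝ} {s t : LS X Q} {x : X} {i0 : Option X}

theorem Geo.h_ge (g : Geo D s t x i0) {j : Option X} (hj : j ≠ i0) : s.h j ≤ t.h j := by
  rw [g.hj j hj]
  exact le_max_left _ _

theorem Geo.h_le (hB : Basic) (g : Geo D s t x i0) {j : Option X} (hj : j ≠ i0) :
    t.h j ≤ s.h j + En D s x := by
  rw [g.hj j hj]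
  have ha := (hB.En_range X Q D s x g.pm g.vs).1
  refine max_le (by linarith) ?_
  rcases g.ch with ⟨h1, h2⟩ | ⟨h1, _⟩
  · have h3 := En_eq_val h1
    rw [h2] at h3
    unfold val at h3
    have h4 := g.vs.sep i0 j (Ne.symm hj)
    have h5 := g.pm.tri (s.z i0) x (s.z j)
    rw [g.pm.symm (s.z i0) x] at h5
    linarith
  · have h3 := hB.En_le X Q D s x j
    unfold val at h3
    linarith

theorem Geo.valid (g : Geo D s t x i0) (hc : ∀ w, (toks D t w 12).card ≤ Q) : Valid D t := by
  refine ⟨?_, ?_, hc⟩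
  · intro i
    by_cases hi : i = i0
    · rw [hi, g.h0]
    · exact (g.vs.h_nonneg i).trans (g.h_ge hi)
  · intro i j hij
    by_cases hi : i = i0
    · have hj : j ≠ i0 := fun h => hij (hi.trans h.symm)
      rw [hi, g.z0, g.h0, g.zj j hj, g.hj j hj]
      have := le_max_right (s.h j) (6 - D x (s.z j))
      linarith
    · by_cases hj : j = i0
      · rw [hj, g.z0, g.h0, g.zj i hi, g.hj i hi, g.pm.symm]
        have := le_max_right (s.h i) (6 - D x (s.z i))
        linarith
      · rw [g.zj i hi, g.zj j hj]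
        have h1 := g.vs.sep i j hij
        have h2 := g.h_ge hi
        have h3 := g.h_ge hj
        linarith

/-- the old place of the moved centre is near `x` if that centre was low -/
theorem Geo.low (g : Geo D s t x i0) (h : s.h i0 < 3) :
    En D s x < 3 ∧ cid D s x = i0 ∧ D x (s.z i0) + s.h i0 = En D s x := by
  rcases g.ch with ⟨h1, h2⟩ | ⟨_, h2⟩
  · refine ⟨h1, h2, ?_⟩
    have h3 := En_eq_val h1
    rw [h2] at h3
    exact h3.symm
  · linarith

theorem Geo.mv (g : Geo D s t x i0)
    (htok : ∀ a c c', s.tk a = some c → t.tk a = some c' → c = c') : Mv D s t := by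
  refine ⟨?_, htok⟩
  intro i hi _
  by_cases h : i = i0
  · subst h
    obtain ⟨h1, _, h3⟩ := g.low hi
    rw [g.z0, g.pm.symm]
    have := g.vs.h_nonneg i
    linarith
  · rw [g.zj i h, g.pm.self]
    norm_num

theorem Geo.fol_le (g : Geo D s t x i0) {om : Lb X Q → ℝ} (hom : ∀ a, 0 ≤ om a)
    (ha : 0 ≤ En D s x) :
    ∑ a, om a * fol D s t a ≤ En D s x * (near D s x).elim 0 om := by
  classical
  have h1 : ∑ a, om a * fol D s t a = om (Sum.inl i0) * fol D s t (Sum.inl i0) := by
    apply Finset.sum_eq_single_of_mem _ (mem_univ _)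
    intro b _ hb
    rcases b with j | b
    · have hj : j ≠ i0 := fun h => hb (by rw [h])
      simp only [fol, Sum.elim_inl, g.zj j hj, g.pm.self, ite_self, mul_zero]
    · simp only [fol, Sum.elim_inr, mul_zero]
  rw [h1]
  have hn : 0 ≤ (near D s x).elim 0 om := by
    rcases near D s x with _ | b
    · exact le_rfl
    · exact hom b
  by_cases h : s.h i0 < 3
  · obtain ⟨h2, h3, h4⟩ := g.low h
    have h5 : near D s x = some (Sum.inl i0) := by
      unfold near
      rw [if_pos h2, h3]
    rw [h5]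
    simp only [Option.elim_some, fol, Sum.elim_inl]
    rw [mul_comm]
    refine mul_le_mul_of_nonneg_right ?_ (hom _)
    split_ifs
    · rw [g.z0, g.pm.symm]
      have := g.vs.h_nonneg i0
      linarith
    · exact ha
  · have h5 : fol D s t (Sum.inl i0) = 0 := by
      simp only [fol, Sum.elim_inl]
      rw [if_neg (fun h' => h h'.1)]
    rw [h5, mul_zero]
    exact mul_nonneg ha hn

theorem Geo.val0 (g : Geo D s t x i0) (v : X) : val D t v i0 = D x v := by
  unfold val
  rw [g.z0, g.h0, add_zero, g.pm.symm]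

theorem Geo.val_ge (g : Geo D s t x i0) (v : X) {j : Option X} (hj : j ≠ i0) :
    val D s v j ≤ val D t v j := by
  unfold val
  rw [g.zj j hj]
  have := g.h_ge hj
  linarith

theorem Geo.val_le (hB : Basic) (g : Geo D s t x i0) (v : X) {j : Option X}
    (h : val D s v j < 3) : val D t v j ≤ val D s v j + En D s x := by
  by_cases hj : j = i0
  · subst hj
    rw [g.val0]
    unfold val at h ⊢
    have h1 := D_nonneg g.pm v (s.z j)
    obtain ⟨_, _, h4⟩ := g.low (by linarith)
    have h5 := g.pm.tri x (s.z j) v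
    rw [g.pm.symm (s.z j) v] at h5
    have := g.vs.h_nonneg j
    linarith
  · unfold val
    rw [g.zj j hj]
    have := g.h_le hB hj
    linarith

theorem Geo.En_le_dist (hB : Basic) (g : Geo D s t x i0) (v : X) : En D t v ≤ D x v := by
  rw [← g.val0]
  exact hB.En_le X Q D t v i0

theorem Geo.En_up (hB : Basic) (g : Geo D s t x i0) (v : X) : En D t v ≤ En D s v + En D s x := by
  have ha := (hB.En_range X Q D s x g.pm g.vs).1
  rcases lt_or_eq_of_le (hB.En_range X Q D s v g.pm g.vs).2 with h | h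
  · have h1 := En_eq_val h
    have h2 := g.val_le hB v (j := cid D s v) (by rw [← h1]; exact h)
    have h3 := hB.En_le X Q D t v (cid D s v)
    linarith
  · have h3 : En D t v ≤ 3 := min_le_left _ _
    linarith

theorem Geo.En_down (hB : Basic) (g : Geo D s t x i0) (v : X) :
    En D s v ≤ En D t v + En D s x := by
  have ha := (hB.En_range X Q D s x g.pm g.vs).1
  have h3 : En D t v ≤ 3 := min_le_left _ _
  rcases lt_or_eq_of_le h3 with h | h
  · have h1 := En_eq_val h
    by_cases hj : cid D t v = i0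
    · rw [hj, g.val0] at h1
      have h2 := hB.En_lip X Q D s v x g.pm
      rw [g.pm.symm v x] at h2
      linarith
    · have h2 := g.val_ge v hj
      have h4 := hB.En_le X Q D s v (cid D t v)
      linarith
  · have h4 : En D s v ≤ 3 := min_le_left _ _
    linarith

theorem Geo.far (hB : Basic) (g : Geo D s t x i0) (vt : Valid D t) {v : X} (hv : 9 ≤ D x v) :
    En D t v = En D s v ∧ (En D s v < 3 → cid D t v = cid D s v) := by
  rcases lt_or_eq_of_le (hB.En_range X Q D s v g.pm g.vs).2 with h | h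
  · have h1 := En_eq_val h
    have hh := g.vs.h_nonneg (cid D s v)
    have hd := D_nonneg g.pm v (s.z (cid D s v))
    have h5 := g.pm.tri x (s.z (cid D s v)) v
    rw [g.pm.symm (s.z (cid D s v)) v] at h5
    have h1' := h1
    unfold val at h1'
    have hj : cid D s v ≠ i0 := by
      intro hj
      rw [hj] at h1' hh hd h5
      obtain ⟨h2, _, h4⟩ := g.low (by linarith)
      linarith
    have h6 : t.h (cid D s v) = s.h (cid D s v) := by
      rw [g.hj _ hj]
      apply max_eq_left
      linarith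
    have h7 : val D t v (cid D s v) = val D s v (cid D s v) := by
      unfold val
      rw [g.zj _ hj, h6]
    obtain ⟨h8, h9⟩ := hB.val_uniq X Q D t v (cid D s v) g.pm vt (by rw [h7, ← h1]; exact h)
    exact ⟨by rw [h9, h7, ← h1], fun _ => h8⟩
  · refine ⟨?_, fun h' => absurd h (ne_of_lt h')⟩
    have h3 : En D t v ≤ 3 := min_le_left _ _
    rcases lt_or_eq_of_le h3 with h4 | h4
    · exfalso
      have h1 := En_eq_val h4
      by_cases hj : cid D t v = i0
      · rw [hj, g.val0] at h1
        linarith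
      · have h2 := g.val_ge v hj
        have h5 := hB.En_le X Q D s v (cid D t v)
        linarith
    · rw [h4, h]

theorem Geo.sq_le (hB : Basic) (g : Geo D s t x i0) (vt : Valid D t) (v : X) :
    En D t v ^ 2 - En D s v ^ 2 ≤ -(En D s x) ^ 2 + 3 * En D s x * D x v ∧
      En D t v ^ 2 - En D s v ^ 2 ≤ 6 * En D s x := by
  have ha := (hB.En_range X Q D s x g.pm g.vs).1
  have h1 := hB.En_range X Q D s v g.pm g.vs
  have h2 := hB.En_range X Q D t v g.pm vt
  have h3 := g.En_le_dist hB v
  have h4 := g.En_up hB v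
  have h5 := hB.En_lip X Q D s x v g.pm
  have hd := D_nonneg g.pm x v
  set a := En D s x
  set E := En D s v
  set E' := En D t v
  set d := D x v
  have h6 : E' ^ 2 - E ^ 2 ≤ 2 * a * E' := by
    rcases le_total E' E with h | h
    · nlinarith [mul_nonneg ha h2.1]
    · nlinarith [mul_nonneg ha h2.1, mul_nonneg (sub_nonneg.2 h) (sub_nonneg.2 h)]
  refine ⟨?_, by nlinarith⟩
  rcases le_total d a with h | h
  · have h7 : E' ^ 2 ≤ d ^ 2 := pow_le_pow_left₀ h2.1 h3 2
    have h8 : (a - d) ^ 2 ≤ E ^ 2 := pow_le_pow_left₀ (by linarith) (by linarith) 2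
    nlinarith [mul_nonneg ha hd]
  · nlinarith [mul_nonneg ha (sub_nonneg.2 h), mul_nonneg ha (sub_nonneg.2 h3)]

/-- two different centres force a large threshold -/
theorem Geo.two (hB : Basic) (g : Geo D s t x i0) (vt : Valid D t) {v : X} {R : ℝ} (hR : R ≤ 3)
    (h1 : En D s v < R) (h2 : En D t v < R) (h3 : cid D s v ≠ cid D t v) :
    3 - En D s x / 2 < R := by
  have h4 := En_eq_val (lt_of_lt_of_le h1 hR)
  have h5 := En_eq_val (lt_of_lt_of_le h2 hR)
  have h6 := g.val_le hB v (j := cid D s v) (by rw [← h4]; exact lt_of_lt_of_le h1 hR)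
  have h7 := vt.sep _ _ h3
  have h8 := g.pm.tri (t.z (cid D s v)) v (t.z (cid D t v))
  rw [g.pm.symm (t.z (cid D s v)) v] at h8
  rw [← h4] at h6
  unfold val at h5 h6
  linarith

end

end Vale.Agent.P304Z.E.E4
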