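import Vale.Agent.P304Z.E4.Geo

/-!
# P304Z, layer E: moving a centre to a point, the change at one point
-/

open Finset

set_option linter.unusedSectionVars false

namespace Vale.Agent.P304Z.E.E4

open Vale.Agent.P304 Vale.Agent.P304.Dyn

theorem yy_nonneg (t : ℝ) : 0 ≤ yy t := le_min zero_le_one (le_max_right _ _)

theorem yy_le (t : ℝ) : yy t ≤ 1 := min_le_left _ _

theorem yy_zero {t : ℝ} (h : t ≤ 1) : yy t = 0 := by
  unfold yy
  rw [max_eq_right (by linarith), min_eq_right zero_le_one]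

theorem yy_one {t : ℝ} (h : 2 ≤ t) : yy t = 1 := by
  unfold yy
  exact min_eq_left (le_max_of_le_left (by linarith))

theorem yy_lip {t t' a : ℝ} (ha : 0 ≤ a) (h : t' ≤ t + a) : yy t' ≤ yy t + a := by
  unfold yy
  rcases le_total 1 (max (t - 1) 0) with h1 | h1
  · rw [min_eq_left h1]
    exact (min_le_left _ _).trans (by linarith)
  · rw [min_eq_right h1]
    refine (min_le_right _ _).trans (max_le ?_ ?_)
    · have := le_max_left (t - 1) 0
      linarith
    · have := le_max_right (t - 1) 0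
      linarith

theorem log_sq_le {S : ℝ} (h0 : 0 < S) (h2 : S ≤ 2) : Real.log (2 / S) ^ 2 * S ≤ 8 := by
  have hu : 0 < 2 / S := by positivity
  have h1 : 1 ≤ 2 / S := by
    rw [le_div_iff₀ h0]
    linarith
  have hs : 0 < Real.sqrt (2 / S) := Real.sqrt_pos.2 hu
  have h3 : Real.log (2 / S) = 2 * Real.log (Real.sqrt (2 / S)) := by
    rw [Real.log_sqrt hu.le]
    ring
  have h4 : Real.log (Real.sqrt (2 / S)) ≤ Real.sqrt (2 / S) :=
    (Real.log_le_sub_one_of_pos hs).trans (by linarith)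
  have h5 : 0 ≤ Real.log (2 / S) := Real.log_nonneg h1
  have h6 : Real.log (2 / S) ^ 2 ≤ (2 * Real.sqrt (2 / S)) ^ 2 :=
    pow_le_pow_left₀ h5 (by linarith) 2
  have h7 : (2 * Real.sqrt (2 / S)) ^ 2 = 8 / S := by
    rw [mul_pow, Real.sq_sqrt hu.le]
    ring
  rw [h7, le_div_iff₀ h0] at h6
  exact h6

theorem per_radius {y y' a e L S : ℝ} (hy : 0 ≤ y) (hy' : 0 ≤ y') (hy1 : y' ≤ 1)
    (hyy : y' ≤ y + a) (ha : 0 < a) (he : 0 ≤ e) (hL : 0 ≤ L) (hS : a / 12 ≤ S) (hS2 : S ≤ 2)
    (hd : Real.log (2 / S) - L ≤ 2 * (a / 12) + e - a / 12 / S) :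
    y' ^ 2 * Real.log (2 / S) - y ^ 2 * L ≤ 120 * a + (2 * (a / 12) + e) := by
  have h0 : 0 < S := lt_of_lt_of_le (by positivity) hS
  have hu : 0 < 2 / S := by positivity
  have h1 : 1 ≤ 2 / S := by
    rw [le_div_iff₀ h0]
    linarith
  have h5 : 0 ≤ Real.log (2 / S) := Real.log_nonneg h1
  have h6 : Real.log (2 / S) ≤ 2 / S := (Real.log_le_sub_one_of_pos hu).trans (by linarith)
  have h7 := log_sq_le h0 hS2
  have hq : 0 < a / 12 / S := by positivity
  have hc : 0 ≤ 2 * (a / 12) + e := by positivity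
  set L' := Real.log (2 / S)
  rcases le_total y' y with h | h
  · have h8 : y' ^ 2 ≤ y ^ 2 := pow_le_pow_left₀ hy' h 2
    have h9 : y' ^ 2 ≤ 1 := pow_le_one₀ hy' hy1
    have h10 : y' ^ 2 * L ≤ y ^ 2 * L := mul_le_mul_of_nonneg_right h8 hL
    have h11 : y' ^ 2 * (L' - L) ≤ y' ^ 2 * (2 * (a / 12) + e) :=
      mul_le_mul_of_nonneg_left (by linarith) (sq_nonneg _)
    have h12 : y' ^ 2 * (2 * (a / 12) + e) ≤ 1 * (2 * (a / 12) + e) :=
      mul_le_mul_of_nonneg_right h9 hc
    nlinarith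
  · have h8 : y' ^ 2 ≤ (y + a) ^ 2 := pow_le_pow_left₀ hy' hyy 2
    have h9 : y ^ 2 ≤ 1 := pow_le_one₀ hy (h.trans hy1)
    have h10 : y' ^ 2 * L' ≤ (y + a) ^ 2 * L' := mul_le_mul_of_nonneg_right h8 h5
    have h11 : y ^ 2 * (L' - L) ≤ y ^ 2 * (2 * (a / 12) + e - a / 12 / S) :=
      mul_le_mul_of_nonneg_left hd (sq_nonneg _)
    have h12 : y ^ 2 * (2 * (a / 12) + e) ≤ 1 * (2 * (a / 12) + e) :=
      mul_le_mul_of_nonneg_right h9 hc
    have h13 : a ^ 2 * L' ≤ 24 * a := by
      have h14 : 2 / S ≤ 24 / a := by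
        rw [div_le_div_iff₀ h0 ha]
        linarith
      have h15 : a ^ 2 * L' ≤ a ^ 2 * (24 / a) :=
        mul_le_mul_of_nonneg_left (h6.trans h14) (sq_nonneg _)
      have h16 : a ^ 2 * (24 / a) = 24 * a := by
        field_simp
      linarith
    have h17 : 2 * y * a * L' - y ^ 2 * (a / 12 / S) ≤ 96 * a := by
      have h18 : 2 * y * a * L' - y ^ 2 * (a / 12 / S) =
          12 * a * (L' ^ 2 * S) - a / 12 / S * (y - 12 * S * L') ^ 2 := by
        field_simp
        ring
      rw [h18]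
      have h19 := mul_nonneg hq.le (sq_nonneg (y - 12 * S * L'))
      have h20 : 12 * a * (L' ^ 2 * S) ≤ 12 * a * 8 :=
        mul_le_mul_of_nonneg_left h7 (by positivity)
      linarith
    nlinarith

theorem sum_f_le {N : ℕ} (hN : 1 ≤ N) : ∑ i ∈ range (2 * N + 1), (i : ℝ) / (N : ℝ) ^ 2 ≤ 3 := by
  have h0 : (1 : ℝ) ≤ N := by exact_mod_cast hN
  have h1 : ∀ m : ℕ, ∑ i ∈ range (m + 1), (i : ℝ) = m * (m + 1) / 2 := by
    intro m
    induction m with
    | zero => simp
    | succ m ih =>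
      rw [sum_range_succ, ih]
      push_cast
      ring
  rw [← Finset.sum_div, h1, div_le_iff₀ (by positivity)]
  push_cast
  nlinarith

theorem sum_f_mul {N : ℕ} (hN : 1 ≤ N) {c : ℝ} (hc : 0 ≤ c) {g : ℕ → ℝ}
    (h : ∀ i, i ≤ 2 * N → g i ≤ c) :
    ∑ i ∈ range (2 * N + 1), (i : ℝ) / (N : ℝ) ^ 2 * g i ≤ 3 * c := by
  refine le_trans (Finset.sum_le_sum (g := fun i : ℕ => (i : ℝ) / (N : ℝ) ^ 2 * c) ?_) ?_
  · intro i hi
    exact mul_le_mul_of_nonneg_left (h i (Nat.lt_succ_iff.1 (mem_range.1 hi))) (by positivity)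
  · rw [← Finset.sum_mul]
    exact mul_le_mul_of_nonneg_right (sum_f_le hN) hc

theorem sum_shift_le {N : ℕ} (hN : 1 ≤ N) {w : ℕ → ℝ} (hw : ∀ i, 0 ≤ w i) :
    (∑ i ∈ range N, w (N + 1 + i)) / N ≤ ∑ i ∈ range (2 * N + 1), (i : ℝ) / (N : ℝ) ^ 2 * w i := by
  have h0 : (1 : ℝ) ≤ N := by exact_mod_cast hN
  have h1 : 2 * N + 1 = (N + 1) + N := by ring
  rw [h1, Finset.sum_range_add, Finset.sum_div]
  have h2 : 0 ≤ ∑ i ∈ range (N + 1), (i : ℝ) / (N : ℝ) ^ 2 * w i :=
    Finset.sum_nonneg fun i _ => mul_nonneg (by positivity) (hw i)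
  have h3 : ∑ i ∈ range N, w (N + 1 + i) / N ≤
      ∑ i ∈ range N, ((N + 1 + i : ℕ) : ℝ) / (N : ℝ) ^ 2 * w (N + 1 + i) := by
    refine Finset.sum_le_sum fun i _ => ?_
    rw [div_eq_inv_mul]
    refine mul_le_mul_of_nonneg_right ?_ (hw _)
    rw [inv_eq_one_div, div_le_div_iff₀ (by positivity) (by positivity)]
    push_cast
    have : (0 : ℝ) ≤ i := Nat.cast_nonneg i
    nlinarith
  linarith

theorem thr_mono {N : ℕ} {P P' : ℝ → Prop} (h : ∀ R, R ≤ 3 → P R → P' R) : thr N P ≤ thr N P' := by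
  classical
  unfold thr
  refine EE_mono fun i => ?_
  have hi : (((i : ℕ) : ℝ) + 1) / N ≤ 1 := by
    have h1 : (i : ℕ) + 1 ≤ N := i.2
    have h2 : ((i : ℕ) : ℝ) + 1 ≤ N := by exact_mod_cast h1
    exact div_le_one_of_le₀ h2 (Nat.cast_nonneg _)
  by_cases h1 : P (2 + (((i : ℕ) : ℝ) + 1) / N)
  · rw [if_pos h1, if_pos (h _ (by linarith) h1)]
  · rw [if_neg h1]
    split_ifs <;> norm_num

theorem dif_le_one {Ω Λ : Type} [Fintype Ω] (a b : Ω → Option Λ) : dif a b ≤ 1 := by
  classical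
  unfold dif EE
  refine div_le_one_of_le₀ ?_ (Nat.cast_nonneg _)
  refine le_trans (Finset.sum_le_sum (g := fun _ => (1 : ℝ)) fun ω _ => ?_) ?_
  · split_ifs <;> norm_num
  · simp

theorem dif_self {Ω Λ : Type} [Fintype Ω] (a : Ω → Option Λ) : dif a a = 0 := by
  classical
  unfold dif EE
  simp

variable {X : Type} [Fintype X] [DecidableEq X] {Q : ℕ}
variable {D : X → X → ℝ} {s t : LS X Q} {x : X} {i0 : Option X} {k N Ne : ℕ} {ε εs ζ : ℝ}

theorem prm_eps {n : ℕ} (hp : Prm n k N Q Ne ε εs ζ) : 0 < ε ∧ ε ≤ 1 := by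
  have h1 : (1 : ℝ) ≤ k := by exact_mod_cast hp.hk
  rw [hp.hε]
  refine ⟨by positivity, ?_⟩
  rw [div_le_one (by positivity)]
  linarith

theorem ell_nonneg (hB : Basic) (hp : Prm (Fintype.card X) k N Q Ne ε εs ζ) (hs : Valid D s)
    (v : X) : 0 ≤ ell D N ε s v := by
  unfold ell
  refine Finset.sum_nonneg fun i hi => mul_nonneg (by positivity) ?_
  have h1 := mem_range.1 hi
  exact (hB.SS_range X Q N ε D s v i hs hp.hQ (le_trans (by norm_num) hp.hN) (prm_eps hp).1
    (prm_eps hp).2 (by omega)).2.2.1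

/-- points at distance at most one -/
theorem Geo.close (hB : Basic) (g : Geo D s t x i0) (vt : Valid D t)
    (hp : Prm (Fintype.card X) k N Q Ne ε εs ζ) {v : X} (hv : D x v ≤ 1) :
    gl D N ε t v - gl D N ε s v + 1 / 8 * dif (lab D N Ne s v) (lab D N Ne t v) ≤
      -(7 / 8) * En D s x ^ 2 + 3 * En D s x * D x v := by
  have h1 := (g.sq_le hB vt v).1
  have h2 := g.En_le_dist hB v
  have h3 : yy (En D t v) = 0 := yy_zero (h2.trans hv)
  have h4 := mul_nonneg (sq_nonneg (yy (En D s v))) (ell_nonneg hB hp g.vs v)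
  have h5 : dif (lab D N Ne s v) (lab D N Ne t v) ≤ En D s x ^ 2 := by
    rcases le_or_gt 1 (En D s x) with h | h
    · exact (dif_le_one _ _).trans (one_le_pow₀ h)
    · have h6 : lab D N Ne s v = lab D N Ne t v := by
        have hc : cid D s x = i0 := by
          rcases g.ch with ⟨_, h7⟩ | ⟨h7, _⟩
          · exact h7
          · linarith
        have h7 := En_eq_val (show En D s x < 3 by linarith)
        rw [hc] at h7
        have h8 : val D s v i0 < 2 := by
          unfold val at h7 ⊢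
          have h9 := g.pm.tri v x (s.z i0)
          rw [g.pm.symm v x] at h9
          linarith
        obtain ⟨h9, h10⟩ := hB.val_uniq X Q D s v i0 g.pm g.vs (by linarith)
        obtain ⟨h11, _⟩ := hB.val_uniq X Q D t v i0 g.pm vt (by rw [g.val0]; linarith)
        funext ω
        have h12 : 0 ≤ (((ω.1 : ℕ) : ℝ) + 1) / N := by positivity
        unfold lab
        rw [if_pos (by linarith), if_pos (by linarith), h9, h11]
      rw [h6, dif_self]
      exact sq_nonneg _
  unfold gl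
  rw [h3]
  linarith

/-- points far away -/
theorem Geo.away (hB : Basic) (g : Geo D s t x i0) (vt : Valid D t) {v : X} (hv : 9 ≤ D x v)
    (htok : ∀ i, i ≤ 2 * N → toks D t v (Rad N i) = toks D s v (Rad N i)) :
    gl D N ε t v - gl D N ε s v + 1 / 8 * dif (lab D N Ne s v) (lab D N Ne t v) = 0 := by
  obtain ⟨h1, h2⟩ := g.far hB vt hv
  have h3 : ell D N ε t v = ell D N ε s v := by
    unfold ell
    refine Finset.sum_congr rfl fun i hi => ?_
    unfold LL SS
    rw [htok i (Nat.lt_succ_iff.1 (mem_range.1 hi))]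
  have h4 : lab D N Ne s v = lab D N Ne t v := by
    funext ω
    have hi : (((ω.1 : ℕ) : ℝ) + 1) / N ≤ 1 := by
      have h5 : (ω.1 : ℕ) + 1 ≤ N := ω.1.2
      have h6 : ((ω.1 : ℕ) : ℝ) + 1 ≤ N := by exact_mod_cast h5
      exact div_le_one_of_le₀ h6 (Nat.cast_nonneg _)
    have h7 : (ω.2.1 : ℕ) < N := ω.2.1.2
    unfold lab
    rw [h1, htok _ (by omega)]
    split_ifs with h
    · rw [h2 (by linarith)]
    · rfl
  unfold gl
  rw [h1, h3, h4, dif_self]
  ring

/-- points at any distance -/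
theorem Geo.mid (hB : Basic) (hE : StTE) (g : Geo D s t x i0) (vt : Valid D t)
    (hp : Prm (Fintype.card X) k N Q Ne ε εs ζ) (ha : 0 < En D s x)
    (hth : Thin D s x (En D s x / 12) t.tk) (v : X) :
    gl D N ε t v - gl D N ε s v + 1 / 8 * dif (lab D N Ne s v) (lab D N Ne t v) ≤
      386 * En D s x + 4 * (((Fintype.card X : ℝ) + 1) / Q / ε) + 1 / N := by
  classical
  have hN : 1 ≤ N := le_trans (by norm_num) hp.hN
  have hN0 : (0 : ℝ) < N := by exact_mod_cast hN
  have hN1 : 0 < 1 / (N : ℝ) := by positivity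
  obtain ⟨hε, hε1⟩ := prm_eps hp
  have ha3 := (hB.En_range X Q D s x g.pm g.vs).2
  have hT := hE X k N Q Ne ε εs ζ D s x (En D s x / 12) t g.pm hp g.vs (by positivity)
    (by linarith) hth v
  have h1 := (g.sq_le hB vt v).2
  have hup := g.En_up hB v
  have hdn := g.En_down hB v
  have hd := hB.dif_le X Q N Ne D s t v v hN
  have he : 0 ≤ ((Fintype.card X : ℝ) + 1) / Q / ε := by positivity
  have t1 : thr N (fun R => ¬ (En D s v < R ↔ En D t v < R)) ≤ En D s x + 1 / N := by
    have h2 := hB.thr_le N (min (En D s v) (En D t v)) (max (En D s v) (En D t v)) hN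
      (min_le_max)
    have h3 : max (En D s v) (En D t v) - min (En D s v) (En D t v) ≤ En D s x := by
      rcases le_total (En D s v) (En D t v) with h | h
      · rw [max_eq_right h, min_eq_left h]
        linarith
      · rw [max_eq_left h, min_eq_right h]
        linarith
    refine le_trans (thr_mono fun R _ hR => ?_) (h2.trans (by linarith))
    by_cases h4 : En D s v < R
    · have h5 : ¬ En D t v < R := fun h => hR ⟨fun _ => h, fun _ => h4⟩
      exact ⟨min_lt_of_left_lt h4, le_max_of_le_right (not_lt.1 h5)⟩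
    · have h5 : En D t v < R := by
        by_contra h
        exact hR ⟨fun h' => absurd h' h4, fun h' => absurd h' h⟩
      exact ⟨min_lt_of_right_lt h5, le_max_of_le_left (not_lt.1 h4)⟩
  have t2 : thr N (fun R => En D s v < R ∧ En D t v < R ∧ cid D s v ≠ cid D t v) ≤
      En D s x / 2 + 1 / N := by
    have h2 := hB.thr_le N (3 - En D s x / 2) 3 hN (by linarith)
    refine le_trans (thr_mono fun R hR3 hR => ?_) (h2.trans (by linarith))
    exact ⟨g.two hB vt hR3 hR.1 hR.2.1 hR.2.2, hR3⟩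
  have hSpos : ∀ i, 0 < SS D N ε t v i := fun i => by
    unfold SS
    positivity
  set a := En D s x with hadef
  set e := ((Fintype.card X : ℝ) + 1) / Q / ε with hedef
  let w : ℕ → ℝ := fun i => if D v x ≤ Rad N i then a / 12 / SS D N ε t v i else 0
  have hw : ∀ i, 0 ≤ w i := fun i => by
    have := hSpos i
    simp only [w]
    split_ifs
    · positivity
    · exact le_rfl
  have hc : 0 ≤ 2 * (a / 12) + e := by positivity
  have hell : ∀ y y' : ℝ, y' ^ 2 * ell D N ε t v - y ^ 2 * ell D N ε s v =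
      ∑ i ∈ range (2 * N + 1), (i : ℝ) / (N : ℝ) ^ 2 *
        (y' ^ 2 * LL D N ε t v i - y ^ 2 * LL D N ε s v i) := by
    intro y y'
    unfold ell
    rw [Finset.mul_sum, Finset.mul_sum, ← Finset.sum_sub_distrib]
    refine Finset.sum_congr rfl fun i _ => ?_
    ring
  have key : yy (En D t v) ^ 2 * ell D N ε t v - yy (En D s v) ^ 2 * ell D N ε s v +
      1 / 8 * (if 2 < En D s v ∧ 2 < En D t v then
        (∑ i ∈ range N, dif (pick Ne (toks D s v (Rad N (N + 1 + i))))
          (pick Ne (toks D t v (Rad N (N + 1 + i))))) / N else 0) ≤ 361 * a + 4 * e := by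
    rw [hell]
    split_ifs with h2
    · rw [yy_one h2.1.le, yy_one h2.2.le]
      have h3 : ∑ i ∈ range (2 * N + 1), (i : ℝ) / (N : ℝ) ^ 2 *
          (1 ^ 2 * LL D N ε t v i - 1 ^ 2 * LL D N ε s v i + w i) ≤ 3 * (2 * (a / 12) + e) := by
        refine sum_f_mul hN hc fun i hi => ?_
        have h4 := (hT i hi).1
        simp only [w]
        linarith
      have h4 : (∑ i ∈ range N, dif (pick Ne (toks D s v (Rad N (N + 1 + i))))
          (pick Ne (toks D t v (Rad N (N + 1 + i))))) / N ≤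
          4 * (a / 12) + 4 * e + 4 * ((∑ i ∈ range N, w (N + 1 + i)) / N) := by
        have h5 : ∑ i ∈ range N, dif (pick Ne (toks D s v (Rad N (N + 1 + i))))
            (pick Ne (toks D t v (Rad N (N + 1 + i)))) ≤
            ∑ i ∈ range N, (4 * (a / 12) + 4 * e + 4 * w (N + 1 + i)) := by
          refine Finset.sum_le_sum fun i hi => ?_
          have h6 := mem_range.1 hi
          have h7 := (hT (N + 1 + i) (by omega)).2.1
          simp only [w]
          split_ifs at h7 ⊢ <;> linarith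
        rw [Finset.sum_add_distrib, Finset.sum_const, card_range, nsmul_eq_mul,
          ← Finset.mul_sum] at h5
        rw [div_le_iff₀ hN0]
        refine h5.trans (le_of_eq ?_)
        field_simp
      have h5 := sum_shift_le hN hw
      have h6 : 0 ≤ (∑ i ∈ range N, w (N + 1 + i)) / N :=
        div_nonneg (Finset.sum_nonneg fun i _ => hw _) hN0.le
      simp only [mul_add, Finset.sum_add_distrib] at h3
      linarith
    · rcases le_or_gt 9 (D x v) with h9 | h9
      · rw [(g.far hB vt h9).1]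
        have h3 : ∑ i ∈ range (2 * N + 1), (i : ℝ) / (N : ℝ) ^ 2 *
            (yy (En D s v) ^ 2 * LL D N ε t v i - yy (En D s v) ^ 2 * LL D N ε s v i) ≤
            3 * (2 * (a / 12) + e) := by
          refine sum_f_mul hN hc fun i hi => ?_
          have h4 := (hT i hi).1
          have h5 := hw i
          simp only [w] at h5
          have h6 : yy (En D s v) ^ 2 * (LL D N ε t v i - LL D N ε s v i) ≤
              yy (En D s v) ^ 2 * (2 * (a / 12) + e) :=
            mul_le_mul_of_nonneg_left (by linarith) (sq_nonneg _)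
          have h7 : yy (En D s v) ^ 2 * (2 * (a / 12) + e) ≤ 1 * (2 * (a / 12) + e) :=
            mul_le_mul_of_nonneg_right (pow_le_one₀ (yy_nonneg _) (yy_le _)) hc
          linarith
        linarith
      · have h3 : ∑ i ∈ range (2 * N + 1), (i : ℝ) / (N : ℝ) ^ 2 *
            (yy (En D t v) ^ 2 * LL D N ε t v i - yy (En D s v) ^ 2 * LL D N ε s v i) ≤
            3 * (120 * a + (2 * (a / 12) + e)) := by
          refine sum_f_mul hN (by positivity) fun i hi => ?_
          have hr : D v x ≤ Rad N i := by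
            unfold Rad
            rw [g.pm.symm]
            have : (0 : ℝ) ≤ (i : ℝ) / N := by positivity
            linarith
          obtain ⟨h4, _, _, h5, h6, _⟩ := hT i hi
          rw [if_pos hr] at h4
          exact per_radius (yy_nonneg _) (yy_nonneg _) (yy_le _) (yy_lip ha.le hup) ha he
            (hB.SS_range X Q N ε D s v i g.vs hp.hQ hN hε hε1 (by omega)).2.2.1 (h6 hr) h5 h4
        linarith
  unfold gl
  linarith

end Vale.Agent.P304Z.E.E4
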